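import Mathlib

/-! # P345: reduction of a polynomial equation to degree four with uniquely determined new
unknowns -/

namespace Vale.Agent.N345

open MvPolynomial

theorem deg_sq {τ : Type} {E : MvPolynomial τ ℤ} (h : E.totalDegree ≤ 2) :
    (E ^ 2).totalDegree ≤ 4 := by
  refine (totalDegree_pow _ _).trans ?_
  omega

theorem deg_X {τ : Type} (t : τ) : (X t : MvPolynomial τ ℤ).totalDegree ≤ 1 := by
  rw [totalDegree_X]

theorem deg_sub {τ : Type} {d : ℕ} {A B : MvPolynomial τ ℤ} (hA : A.totalDegree ≤ d)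
    (hB : B.totalDegree ≤ d) : (A - B).totalDegree ≤ d :=
  (totalDegree_sub A B).trans (max_le hA hB)

theorem deg_add {τ : Type} {d : ℕ} {A B : MvPolynomial τ ℤ} (hA : A.totalDegree ≤ d)
    (hB : B.totalDegree ≤ d) : (A + B).totalDegree ≤ d :=
  (totalDegree_add A B).trans (max_le hA hB)

theorem deg_mul {τ : Type} {d e : ℕ} {A B : MvPolynomial τ ℤ} (hA : A.totalDegree ≤ d)
    (hB : B.totalDegree ≤ e) : (A * B).totalDegree ≤ d + e :=
  (totalDegree_mul A B).trans (Nat.add_le_add hA hB)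

theorem deg_one {τ : Type} (d : ℕ) : (1 : MvPolynomial τ ℤ).totalDegree ≤ d := by
  rw [totalDegree_one]; exact Nat.zero_le _

theorem deg_C {τ : Type} (c : ℤ) (d : ℕ) : (C c : MvPolynomial τ ℤ).totalDegree ≤ d := by
  rw [totalDegree_C]; exact Nat.zero_le _

/-- Every polynomial equation is equivalent to an equation of degree at most four with a
nonnegative left side, whose new unknowns are monomials in the old ones. -/
theorem degree_four_aux {σ : Type} [Fintype σ] (P : MvPolynomial σ ℤ) :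
    ∃ (τ : Type) (_ : Fintype τ) (g : τ → σ → ℕ) (Q : MvPolynomial (σ ⊕ τ) ℤ),
      Q.totalDegree ≤ 4 ∧ (∀ v, 0 ≤ eval v Q) ∧
      ∀ (x : σ → ℤ) (z : τ → ℤ), eval (Sum.elim x z) Q = 0 ↔
        eval x P = 0 ∧ ∀ t, z t = ∏ i, x i ^ g t i := by
  classical
  let B : σ →₀ ℕ := ∑ μ ∈ P.support, μ
  let T : Finset (σ →₀ ℕ) := Finset.Iic B
  have hT1 : ∀ μ ∈ P.support, μ ∈ T := by
    intro μ hμ
    rw [Finset.mem_Iic]
    exact Finset.single_le_sum (f := fun ν => ν) (fun ν _ => zero_le) hμ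
  have hT2 : ∀ μ ∈ T, ∀ ν, ν ≤ μ → ν ∈ T := by
    intro μ hμ ν hν
    rw [Finset.mem_Iic] at hμ ⊢
    exact hν.trans hμ
  have hE : ∀ μ : T, ∃ E : MvPolynomial (σ ⊕ T) ℤ, E.totalDegree ≤ 2 ∧
      ((μ.1 = 0 ∧ E = X (Sum.inr μ) - 1) ∨ ∃ (i : σ) (ν : T), μ.1 = ν.1 + Finsupp.single i 1 ∧
        E = X (Sum.inr μ) - X (Sum.inr ν) * X (Sum.inl i)) := by
    intro μ
    by_cases h : μ.1 = 0
    · exact ⟨_, deg_sub ((deg_X _).trans one_le_two) (deg_one _), Or.inl ⟨h, rfl⟩⟩
    · obtain ⟨i, hi⟩ : ∃ i, μ.1 i ≠ 0 := by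
        by_contra hc
        push Not at hc
        exact h (Finsupp.ext hc)
      have hle : Finsupp.single i 1 ≤ μ.1 := by
        rw [Finsupp.single_le_iff]
        omega
      refine ⟨_, deg_sub ((deg_X _).trans one_le_two) (deg_mul (deg_X _) (deg_X _)),
        Or.inr ⟨i, ⟨μ.1 - Finsupp.single i 1, hT2 _ μ.2 _ tsub_le_self⟩, ?_, rfl⟩⟩
      exact (tsub_add_cancel_of_le hle).symm
  choose E hE1 hE2 using hE
  have hmon : ∀ (x : σ → ℤ) (ν : σ →₀ ℕ) (i : σ),
      ∏ j, x j ^ (ν + Finsupp.single i 1 : σ →₀ ℕ) j = (∏ j, x j ^ ν j) * x i := by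
    intro x ν i
    simp only [Finsupp.coe_add, Pi.add_apply, pow_add, Finset.prod_mul_distrib]
    congr 1
    rw [Finset.prod_eq_single i]
    · simp
    · intro j _ hj
      rw [Finsupp.single_eq_of_ne hj, pow_zero]
    · intro h; exact absurd (Finset.mem_univ i) h
  have hkey : ∀ (x : σ → ℤ) (z : T → ℤ), (∀ μ, eval (Sum.elim x z) (E μ) = 0) ↔
      ∀ μ : T, z μ = ∏ i, x i ^ μ.1 i := by
    intro x z
    constructor
    · intro h
      have : ∀ (d : ℕ) (μ : T), ∑ i, μ.1 i = d → z μ = ∏ i, x i ^ μ.1 i := by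
        intro d
        induction d with
        | zero =>
          intro μ hμ
          have h1 := h μ
          rcases hE2 μ with ⟨h2, h3⟩ | ⟨i, ν, h2, h3⟩
          · rw [h3] at h1
            simp only [map_sub, eval_X, Sum.elim_inr, map_one] at h1
            rw [h2]
            simp
            linarith
          · exfalso
            rw [h2] at hμ
            simp [Finset.sum_add_distrib] at hμ
        | succ d ih =>
          intro μ hμ
          have h1 := h μ
          rcases hE2 μ with ⟨h2, h3⟩ | ⟨i, ν, h2, h3⟩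
          · rw [h2] at hμ
            simp at hμ
          · rw [h3] at h1
            simp only [map_sub, map_mul, eval_X, Sum.elim_inr, Sum.elim_inl] at h1
            have h4 : ∑ j, ν.1 j = d := by
              rw [h2] at hμ
              simp [Finset.sum_add_distrib] at hμ
              exact hμ
            rw [h2, hmon, ← ih ν h4]
            linarith
      intro μ
      exact this _ μ rfl
    · intro h μ
      rcases hE2 μ with ⟨h2, h3⟩ | ⟨i, ν, h2, h3⟩
      · rw [h3]
        simp only [map_sub, eval_X, Sum.elim_inr, map_one]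
        rw [h μ, h2]
        simp
      · rw [h3]
        simp only [map_sub, map_mul, eval_X, Sum.elim_inr, Sum.elim_inl]
        rw [h μ, h ν, h2, hmon, sub_self]
  let L : MvPolynomial (σ ⊕ T) ℤ := ∑ μ : T, C (coeff μ.1 P) * X (Sum.inr μ)
  have hL1 : L.totalDegree ≤ 2 := by
    refine totalDegree_finsetSum_le fun μ _ => ?_
    exact deg_mul (deg_C _ 1) (deg_X _)
  have hL2 : ∀ (x : σ → ℤ) (z : T → ℤ), (∀ μ : T, z μ = ∏ i, x i ^ μ.1 i) →
      eval (Sum.elim x z) L = eval x P := by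
    intro x z h
    simp only [L, map_sum, map_mul, eval_C, eval_X, Sum.elim_inr, h]
    rw [eval_eq', Finset.sum_coe_sort T (fun μ => coeff μ P * ∏ i, x i ^ μ i)]
    symm
    refine Finset.sum_subset hT1 fun μ _ hμ => ?_
    rw [notMem_support_iff.1 hμ, zero_mul]
  refine ⟨T, inferInstance, fun μ i => μ.1 i, L ^ 2 + ∑ μ : T, E μ ^ 2, ?_, ?_, ?_⟩
  · exact deg_add (deg_sq hL1) (totalDegree_finsetSum_le fun μ _ => deg_sq (hE1 μ))
  · intro v
    simp only [map_add, map_pow, map_sum]
    positivity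
  · intro x z
    simp only [map_add, map_pow, map_sum]
    constructor
    · intro h
      have h0 : 0 ≤ ∑ μ : T, eval (Sum.elim x z) (E μ) ^ 2 := by positivity
      have h1 : eval (Sum.elim x z) L ^ 2 = 0 := by nlinarith [sq_nonneg (eval (Sum.elim x z) L)]
      have h2 : ∑ μ : T, eval (Sum.elim x z) (E μ) ^ 2 = 0 := by linarith
      rw [Finset.sum_eq_zero_iff_of_nonneg (fun μ _ => sq_nonneg _)] at h2
      have h3 := (hkey x z).1 fun μ => pow_eq_zero_iff two_ne_zero |>.1 (h2 μ (Finset.mem_univ _))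
      refine ⟨?_, h3⟩
      rw [← hL2 x z h3]
      exact pow_eq_zero_iff two_ne_zero |>.1 h1
    · rintro ⟨h1, h2⟩
      have h3 := (hkey x z).2 h2
      rw [hL2 x z h2, h1]
      simp [h3]

end Vale.Agent.N345
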