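import Vale.Agent.N345.Nat4
import Vale.Agent.P345.H880.CountMain

/-! # P345: finite-fold representations with integer unknowns -/

namespace Vale.Agent.N345

open MvPolynomial Vale.Agent.P345

/-- Passage from natural to integer unknowns: the number of solutions stays finite. -/
theorem liftZ (γ : Type) [Fintype γ] : ∃ (k : ℕ) (ι : γ → Fin k), ∀ (α : Type)
    (Q : MvPolynomial (α ⊕ γ) ℤ), Q.totalDegree ≤ 4 → (∀ v, 0 ≤ eval v Q) →
    ∃ R : MvPolynomial (α ⊕ Fin k) ℤ, R.totalDegree ≤ 4 ∧ ∀ a : α → ℤ,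
      (∀ w : γ → ℕ, eval (Sum.elim a (fun j => (w j : ℤ))) Q = 0 →
        ∃ z : Fin k → ℤ, eval (Sum.elim a z) R = 0 ∧ ∀ j, z (ι j) = w j) ∧
      (∀ z : Fin k → ℤ, eval (Sum.elim a z) R = 0 →
        ∃ w : γ → ℕ, eval (Sum.elim a (fun j => (w j : ℤ))) Q = 0) ∧
      ({w : γ → ℕ | eval (Sum.elim a (fun j => (w j : ℤ))) Q = 0}.Finite →
        {z : Fin k → ℤ | eval (Sum.elim a z) R = 0}.Finite) := by
  classical
  let e : γ ⊕ γ × Fin 4 ≃ Fin (Fintype.card (γ ⊕ γ × Fin 4)) := Fintype.equivFin _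
  refine ⟨_, fun j => e (Sum.inl j), fun α Q h1 h2 => ?_⟩
  let R : MvPolynomial (α ⊕ Fin (Fintype.card (γ ⊕ γ × Fin 4))) ℤ :=
    rename (Sum.map id fun j => e (Sum.inl j)) Q +
      ∑ j : γ, (X (Sum.inr (e (Sum.inl j))) - ∑ t : Fin 4, X (Sum.inr (e (Sum.inr (j, t)))) ^ 2) ^ 2
  have key : ∀ (a : α → ℤ) (z : Fin (Fintype.card (γ ⊕ γ × Fin 4)) → ℤ),
      eval (Sum.elim a z) R = 0 ↔ eval (Sum.elim a (fun j => z (e (Sum.inl j)))) Q = 0 ∧
        ∀ j, z (e (Sum.inl j)) = ∑ t : Fin 4, z (e (Sum.inr (j, t))) ^ 2 := by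
    intro a z
    simp only [R, map_add, eval_ren, map_sum, map_pow, map_sub, eval_X, Sum.elim_inr]
    have h3 := h2 (Sum.elim a (fun j => z (e (Sum.inl j))))
    have h4 : 0 ≤ ∑ j : γ, (z (e (Sum.inl j)) - ∑ t : Fin 4, z (e (Sum.inr (j, t))) ^ 2) ^ 2 := by
      positivity
    constructor
    · intro h
      have h5 : eval (Sum.elim a (fun j => z (e (Sum.inl j)))) Q +
          ∑ j : γ, (z (e (Sum.inl j)) - ∑ t : Fin 4, z (e (Sum.inr (j, t))) ^ 2) ^ 2 = 0 := h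
      have h6 : ∑ j : γ, (z (e (Sum.inl j)) - ∑ t : Fin 4, z (e (Sum.inr (j, t))) ^ 2) ^ 2 = 0 := by
        linarith
      rw [Finset.sum_eq_zero_iff_of_nonneg (fun μ _ => sq_nonneg _)] at h6
      refine ⟨by linarith, fun j => ?_⟩
      exact sub_eq_zero.1 (pow_eq_zero_iff two_ne_zero |>.1 (h6 j (Finset.mem_univ _)))
    · rintro ⟨h5, h6⟩
      show eval (Sum.elim a (fun j => z (e (Sum.inl j)))) Q + _ = 0
      rw [h5, zero_add]
      refine Finset.sum_eq_zero fun j _ => ?_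
      rw [← h6 j]
      simp
  have hnat : ∀ (a : α → ℤ) (z : Fin (Fintype.card (γ ⊕ γ × Fin 4)) → ℤ),
      eval (Sum.elim a z) R = 0 → ∃ w : γ → ℕ, eval (Sum.elim a (fun j => (w j : ℤ))) Q = 0 ∧
        ∀ s, |z s| ≤ ∑ j, (w j : ℤ) := by
    intro a z hz
    obtain ⟨h3, h4⟩ := (key a z).1 hz
    have h5 : ∀ j, 0 ≤ z (e (Sum.inl j)) := fun j => by rw [h4 j]; positivity
    have h6 : ∀ j, (((z (e (Sum.inl j))).toNat : ℕ) : ℤ) = z (e (Sum.inl j)) :=
      fun j => Int.toNat_of_nonneg (h5 j)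
    refine ⟨fun j => (z (e (Sum.inl j))).toNat, by simpa only [h6] using h3, fun s => ?_⟩
    simp only [h6]
    have h7 : ∀ j, z (e (Sum.inl j)) ≤ ∑ j, z (e (Sum.inl j)) := fun j =>
      Finset.single_le_sum (f := fun j => z (e (Sum.inl j))) (fun j _ => h5 j) (Finset.mem_univ j)
    obtain ⟨s, rfl⟩ := e.surjective s
    rcases s with j | ⟨j, t⟩
    · rw [abs_of_nonneg (h5 j)]
      exact h7 j
    · refine le_trans ?_ (h7 j)
      rw [h4 j]
      refine le_trans ?_ (Finset.single_le_sum (f := fun t => z (e (Sum.inr (j, t))) ^ 2)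
        (fun t _ => sq_nonneg _) (Finset.mem_univ t))
      exact Int.le_self_sq _ |>.trans_eq (sq_abs _)
  refine ⟨R, ?_, fun a => ⟨fun w hw => ?_, fun z hz => ?_, fun hf => ?_⟩⟩
  · refine deg_add ((totalDegree_rename_le _ _).trans h1)
      (totalDegree_finsetSum_le fun j _ => deg_sq (deg_sub ((deg_X _).trans one_le_two)
        (totalDegree_finsetSum_le fun t _ => ?_)))
    refine (totalDegree_pow _ _).trans ?_
    rw [totalDegree_X]
  · have h3 : ∀ j, ∃ s : Fin 4 → ℤ, (w j : ℤ) = ∑ t, s t ^ 2 := by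
      intro j
      obtain ⟨a, b, c, d, h⟩ := Nat.sum_four_squares (w j)
      refine ⟨![a, b, c, d], ?_⟩
      rw [← h]
      simp [Fin.sum_univ_four]
    choose s hs using h3
    refine ⟨Sum.elim (fun j => (w j : ℤ)) (fun p => s p.1 p.2) ∘ e.symm, ?_, fun j => by simp⟩
    rw [key]
    refine ⟨by simpa using hw, fun j => ?_⟩
    simpa using hs j
  · obtain ⟨w, hw, -⟩ := hnat a z hz
    exact ⟨w, hw⟩
  · refine (hf.biUnion (t := fun w => Set.Icc (fun _ => -∑ j, (w j : ℤ)) (fun _ => ∑ j, (w j : ℤ)))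
      fun w _ => Set.finite_Icc _ _).subset fun z hz => ?_
    obtain ⟨w, hw, h3⟩ := hnat a z hz
    exact Set.mem_biUnion hw ⟨fun s => (abs_le.1 (h3 s)).1, fun s => (abs_le.1 (h3 s)).2⟩

theorem ofNat_int_iff (c : ℕ) (a : ℤ) :
    Denumerable.ofNat ℤ c = a ↔ ((c : ℤ) - 2 * a) * (c + 2 * a + 1) = 0 := by
  have h1 : Denumerable.ofNat ℤ c = a ↔ c = Encodable.encode a := by
    constructor
    · rintro rfl
      exact (Denumerable.encode_ofNat c).symm
    · rintro rfl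
      exact Denumerable.ofNat_encode a
  rw [h1, mul_eq_zero]
  rcases a with a | a
  · have : Encodable.encode (Int.ofNat a) = 2 * a := rfl
    rw [this]
    simp only [Int.ofNat_eq_natCast]
    omega
  · have : Encodable.encode (Int.negSucc a) = 2 * a + 1 := rfl
    rw [this]
    omega

/-- Finite-fold representations of degree four with integer parameters and unknowns. -/
theorem finiteFoldZ (n : ℕ) : ∃ m : ℕ, ∀ S : Set (Fin n → ℤ), REPred (fun a => a ∈ S) →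
    ∃ P : MvPolynomial (Fin n ⊕ Fin m) ℤ, P.totalDegree ≤ 4 ∧
      (∀ a : Fin n → ℤ, a ∈ S ↔ ∃ w : Fin m → ℤ, eval (Sum.elim a w) P = 0) ∧
      ∀ a : Fin n → ℤ, {w : Fin m → ℤ | eval (Sum.elim a w) P = 0}.Finite := by
  obtain ⟨m, hm⟩ := good n
  obtain ⟨k, ι, hk⟩ := liftZ (Fin n ⊕ Fin m)
  refine ⟨k, fun S hS => ?_⟩
  have h0 : Computable (fun (c : Fin n → ℕ) (i : Fin n) => Denumerable.ofNat ℤ (c i)) :=
    (Primrec.fin_curry.2 (show Primrec₂ (fun (c : Fin n → ℕ) (i : Fin n) =>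
      Denumerable.ofNat ℤ (c i)) from (Primrec.ofNat ℤ).comp Primrec.fin_app)).to_comp
  obtain ⟨P, h1, h2, h3, h4⟩ :=
    hm {c | (fun i => Denumerable.ofNat ℤ (c i)) ∈ S} (Partrec.comp hS h0)
  let Q : MvPolynomial (Fin n ⊕ (Fin n ⊕ Fin m)) ℤ := rename Sum.inr P +
    ∑ i : Fin n, ((X (Sum.inr (Sum.inl i)) - C 2 * X (Sum.inl i)) *
      (X (Sum.inr (Sum.inl i)) + C 2 * X (Sum.inl i) + 1)) ^ 2
  have key : ∀ (a : Fin n → ℤ) (w : Fin n ⊕ Fin m → ℕ),
      eval (Sum.elim a (fun j => (w j : ℤ))) Q = 0 ↔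
        IsWit P (fun i => w (Sum.inl i)) (fun j => w (Sum.inr j)) ∧
        ∀ i, Denumerable.ofNat ℤ (w (Sum.inl i)) = a i := by
    intro a w
    simp only [Q, map_add, eval_rename, map_sum, map_pow, map_sub, map_mul, eval_X, eval_C,
      Sum.elim_inr, Sum.elim_inl, map_one, ofNat_int_iff]
    have e1 : (Sum.elim a (fun j => (w j : ℤ))) ∘ Sum.inr =
        Sum.elim (fun i => (w (Sum.inl i) : ℤ)) (fun j => (w (Sum.inr j) : ℤ)) := by
      funext t
      rcases t with t | t <;> rfl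
    rw [e1]
    unfold IsWit
    have h5 := h2 (Sum.elim (fun i => (w (Sum.inl i) : ℤ)) (fun j => (w (Sum.inr j) : ℤ)))
    have h6 : 0 ≤ ∑ i : Fin n, (((w (Sum.inl i) : ℤ) - 2 * a i) *
        (w (Sum.inl i) + 2 * a i + 1)) ^ 2 := by positivity
    constructor
    · intro h
      have h7 : ∑ i : Fin n, (((w (Sum.inl i) : ℤ) - 2 * a i) *
        (w (Sum.inl i) + 2 * a i + 1)) ^ 2 = 0 := by linarith
      rw [Finset.sum_eq_zero_iff_of_nonneg (fun μ _ => sq_nonneg _)] at h7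
      exact ⟨by linarith, fun i => pow_eq_zero_iff two_ne_zero |>.1 (h7 i (Finset.mem_univ _))⟩
    · rintro ⟨h7, h8⟩
      rw [h7, zero_add]
      refine Finset.sum_eq_zero fun i _ => ?_
      rw [h8 i]
      simp
  have hX : ∀ i : Fin n, (C 2 * X (Sum.inl i) :
      MvPolynomial (Fin n ⊕ (Fin n ⊕ Fin m)) ℤ).totalDegree ≤ 1 :=
    fun i => deg_mul (deg_C _ 0) (deg_X _)
  obtain ⟨R, hR1, hR2⟩ := hk (Fin n) Q
    (deg_add ((totalDegree_rename_le _ _).trans h1) (totalDegree_finsetSum_le fun i _ =>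
      deg_sq (deg_mul (deg_sub (deg_X _) (hX i)) (deg_add (deg_add (deg_X _) (hX i)) (deg_one _)))))
    (by
      intro v
      simp only [Q, map_add, eval_rename, map_sum, map_pow]
      have := h2 (v ∘ Sum.inr)
      positivity)
  refine ⟨R, hR1, fun a => ⟨fun ha => ?_, ?_⟩, fun a => (hR2 a).2.2 ?_⟩
  · obtain ⟨w, hw⟩ := (h3 (fun i => Encodable.encode (a i))).1 (by
      have h5 : (fun i => Denumerable.ofNat ℤ (Encodable.encode (a i))) = a :=
        funext fun i => Denumerable.ofNat_encode (a i)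
      show (fun i => Denumerable.ofNat ℤ (Encodable.encode (a i))) ∈ S
      rw [h5]
      exact ha)
    obtain ⟨z, hz, -⟩ := (hR2 a).1 (Sum.elim (fun i => Encodable.encode (a i)) w)
      ((key a _).2 ⟨hw, fun i => Denumerable.ofNat_encode (a i)⟩)
    exact ⟨z, hz⟩
  · rintro ⟨z, hz⟩
    obtain ⟨w, hw⟩ := (hR2 a).2.1 z hz
    obtain ⟨h5, h6⟩ := (key a w).1 hw
    have h7 := (h3 _).2 ⟨_, h5⟩
    have h8 : (fun i => Denumerable.ofNat ℤ (w (Sum.inl i))) = a := funext h6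
    rw [← h8]
    exact h7
  · refine Set.Subsingleton.finite fun w hw w' hw' => ?_
    obtain ⟨h5, h6⟩ := (key a w).1 hw
    obtain ⟨h7, h8⟩ := (key a w').1 hw'
    have h9 : (fun i => w (Sum.inl i)) = fun i => w' (Sum.inl i) := by
      funext i
      have := (h6 i).trans (h8 i).symm
      rw [← Denumerable.encode_ofNat (α := ℤ) (w (Sum.inl i)), this, Denumerable.encode_ofNat]
    rw [h9] at h5
    have h10 := h4 _ h5 h7
    funext t
    rcases t with t | t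
    · exact congrFun h9 t
    · exact congrFun h10 t

/-- A family of equations of degree four, each with finitely many integer solutions, whose
solutions are not bounded by any computable function of the parameter. -/
theorem noneffectiveZ : ∃ (m : ℕ) (P : MvPolynomial (Fin 1 ⊕ Fin m) ℤ), P.totalDegree ≤ 4 ∧
    (∀ x : ℕ, {w : Fin m → ℤ | eval (Sum.elim ![(x : ℤ)] w) P = 0}.Finite) ∧
    ∀ f : ℕ → ℕ, Computable f → {x : ℕ | ∃ w : Fin m → ℤ,
      eval (Sum.elim ![(x : ℤ)] w) P = 0 ∧ ∃ j, (f x : ℤ) < |w j|}.Infinite := by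
  obtain ⟨m, hU, -⟩ := H880.universal
  obtain ⟨P, hP1, hP2⟩ := H880.noneffective hU
  obtain ⟨k, Q, ι, h1, h2, h3, h4, h5⟩ := deg4_nat P
  obtain ⟨l, κ, hl⟩ := liftZ (Fin k)
  obtain ⟨R, hR1, hR2⟩ := hl (Fin 1) Q h1 h2
  have e1 : ∀ x : ℕ, (![(x : ℤ)] : Fin 1 → ℤ) = fun i => ((![x] : Fin 1 → ℕ) i : ℤ) := by
    intro x
    funext i
    fin_cases i
    rfl
  refine ⟨l, R, hR1, fun x => (hR2 _).2.2 ?_, fun f hf => (hP2 f hf).mono ?_⟩
  · rw [e1]
    refine Set.Subsingleton.finite fun z hz z' hz' => ?_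
    exact h5 _ z z' hz hz' (hP1 _ (h4 _ z hz) (h4 _ z' hz'))
  · rintro x ⟨w, hw, j, hj⟩
    obtain ⟨z, hz, h6⟩ := h3 _ w hw
    obtain ⟨y, hy, h7⟩ := (hR2 ![(x : ℤ)]).1 z (by rw [e1]; exact hz)
    refine ⟨y, hy, κ (ι j), ?_⟩
    rw [h7, Nat.abs_cast]
    have : z (ι j) = w j := congrFun h6 j
    rw [this]
    exact_mod_cast hj

end Vale.Agent.N345
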