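import Vale.Agent.N345.Deg
import Vale.Agent.P345.H880.Poly

/-! # P345: single-fold representations of degree four; polynomials taking each value once -/

namespace Vale.Agent.N345

open MvPolynomial Vale.Agent.P345

theorem eval_ren {α β γ : Type} (e : β → γ) (P : MvPolynomial (α ⊕ β) ℤ) (a : α → ℤ)
    (w : γ → ℤ) :
    eval (Sum.elim a w) (rename (Sum.map id e) P) = eval (Sum.elim a (w ∘ e)) P := by
  rw [eval_rename]
  congr 2
  funext t
  rcases t with t | t <;> rfl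

theorem eval_bind {σ τ : Type} (f : σ → MvPolynomial τ ℤ) (P : MvPolynomial σ ℤ) (v : τ → ℤ) :
    eval v (bind₁ f P) = eval (fun i => eval v (f i)) P := by
  show eval₂Hom _ _ _ = _
  rw [eval₂Hom_bind₁]
  rfl

/-- Degree reduction keeps the natural solutions, bijectively. -/
theorem deg4_nat {n m : ℕ} (P : MvPolynomial (Fin n ⊕ Fin m) ℤ) :
    ∃ (k : ℕ) (Q : MvPolynomial (Fin n ⊕ Fin k) ℤ) (ι : Fin m → Fin k), Q.totalDegree ≤ 4 ∧
      (∀ v, 0 ≤ eval v Q) ∧
      (∀ a w, IsWit P a w → ∃ z, IsWit Q a z ∧ z ∘ ι = w) ∧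
      (∀ a z, IsWit Q a z → IsWit P a (z ∘ ι)) ∧
      ∀ a z z', IsWit Q a z → IsWit Q a z' → z ∘ ι = z' ∘ ι → z = z' := by
  obtain ⟨τ, _, g, Q, h1, h2, h3⟩ := degree_four_aux P
  let e : Fin m ⊕ τ ≃ Fin (Fintype.card (Fin m ⊕ τ)) := Fintype.equivFin _
  let Q1 : MvPolynomial (Fin n ⊕ (Fin m ⊕ τ)) ℤ := rename (Equiv.sumAssoc _ _ _) Q
  have key : ∀ (a : Fin n → ℕ) (z : Fin (Fintype.card (Fin m ⊕ τ)) → ℕ),
      IsWit (rename (Sum.map id e) Q1) a z ↔ IsWit P a (z ∘ fun j => e (Sum.inl j)) ∧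
        ∀ t, z (e (Sum.inr t)) = ∏ i, Sum.elim a (fun j => z (e (Sum.inl j))) i ^ g t i := by
    intro a z
    unfold IsWit
    rw [eval_ren, eval_rename]
    have : (Sum.elim (fun i => (a i : ℤ)) ((fun j => (z j : ℤ)) ∘ e)) ∘ Equiv.sumAssoc _ _ _ =
        Sum.elim (Sum.elim (fun i => (a i : ℤ)) (fun j => (z (e (Sum.inl j)) : ℤ)))
          (fun t => (z (e (Sum.inr t)) : ℤ)) := by
      funext t
      rcases t with (t | t) | t <;> rfl
    rw [this, h3]
    refine and_congr Iff.rfl (forall_congr' fun t => ?_)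
    rw [← Nat.cast_inj (R := ℤ)]
    push_cast
    refine Eq.congr rfl (Finset.prod_congr rfl fun i _ => ?_)
    rcases i with i | i <;> rfl
  refine ⟨_, rename (Sum.map id e) Q1, fun j => e (Sum.inl j), ?_, ?_, ?_, ?_, ?_⟩
  · exact (totalDegree_rename_le _ _).trans ((totalDegree_rename_le _ _).trans h1)
  · intro v
    rw [eval_rename, eval_rename]
    exact h2 _
  · intro a w hw
    refine ⟨Sum.elim w (fun t => ∏ i, Sum.elim a w i ^ g t i) ∘ e.symm, ?_, ?_⟩
    · rw [key]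
      refine ⟨?_, fun t => ?_⟩
      · convert hw using 1
        funext j
        simp
      · simp
    · funext j
      simp
  · intro a z hz
    exact ((key a z).1 hz).1
  · intro a z z' hz hz' h
    have h4 : ∀ j, z (e (Sum.inl j)) = z' (e (Sum.inl j)) := fun j => congrFun h j
    funext s
    obtain ⟨t, rfl⟩ := e.surjective s
    rcases t with j | t
    · exact h4 j
    · rw [((key a z).1 hz).2 t, ((key a z').1 hz').2 t]
      simp only [h4]

/-- a single-fold representation of degree at most four with a nonnegative left side -/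
def Good {n m : ℕ} (S : Set (Fin n → ℕ)) (P : MvPolynomial (Fin n ⊕ Fin m) ℤ) : Prop :=
  P.totalDegree ≤ 4 ∧ (∀ v, 0 ≤ eval v P) ∧ (∀ a, a ∈ S ↔ ∃ w, IsWit P a w) ∧ SingleFoldPoly P

theorem good (n : ℕ) : ∃ m : ℕ, ∀ S : Set (Fin n → ℕ), REPred (fun a => a ∈ S) →
    ∃ P : MvPolynomial (Fin n ⊕ Fin m) ℤ, Good S P := by
  obtain ⟨m, hU, -⟩ := H880.universal
  obtain ⟨U, hU1, hU2⟩ := hU n
  obtain ⟨k, Q, ι, h1, h2, h3, h4, h5⟩ := deg4_nat U
  refine ⟨k, fun S hS => ?_⟩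
  obtain ⟨e, he⟩ := hU2 S hS
  refine ⟨bind₁ (H880.spec n k e) Q, ?_, ?_, ?_, ?_⟩
  · refine (H880.totalDegree_bind _ _ ?_).trans h1
    rintro (i | j)
    · refine Fin.cases ?_ (fun k => ?_) i
      · exact deg_C _ _
      · simp [H880.spec, totalDegree_X]
    · simp [H880.spec, totalDegree_X]
  · intro v
    rw [eval_bind]
    exact h2 _
  · intro a
    rw [he]
    constructor
    · rintro ⟨w, hw⟩
      obtain ⟨z, hz, -⟩ := h3 _ w hw
      exact ⟨z, (H880.eval_spec Q e a z).2 hz⟩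
    · rintro ⟨z, hz⟩
      exact ⟨_, h4 _ z ((H880.eval_spec Q e a z).1 hz)⟩
  · intro a z hz z' hz'
    have g1 := (H880.eval_spec Q e a z).1 hz
    have g2 := (H880.eval_spec Q e a z').1 hz'
    exact h5 _ z z' g1 g2 (hU1 _ (h4 _ z g1) (h4 _ z' g2))

/-- Polynomials of degree five whose nonnegative values are the elements of a recursively
enumerable set, each taken exactly once. -/
theorem putnam : ∃ m : ℕ, ∀ S : Set ℕ, REPred (fun s => s ∈ S) →
    ∃ Q : MvPolynomial (Fin m) ℤ, Q.totalDegree ≤ 5 ∧ ∀ s : ℕ,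
      (s ∈ S → ∃! w : Fin m → ℕ, eval (fun j => (w j : ℤ)) Q = s) ∧
      (s ∉ S → ∀ w : Fin m → ℕ, eval (fun j => (w j : ℤ)) Q ≠ s) := by
  obtain ⟨m, hm⟩ := good 1
  refine ⟨1 + m, fun S hS => ?_⟩
  have h0 : Computable (fun v : Fin 1 → ℕ => v 0) :=
    (Primrec.fin_app.comp .id (Primrec.const 0)).to_comp
  obtain ⟨P, h1, h2, h3, h4⟩ := hm {a | a 0 ∈ S} (Partrec.comp hS h0)
  let e : Fin 1 ⊕ Fin m ≃ Fin (1 + m) := finSumFinEquiv
  let Q : MvPolynomial (Fin 1 ⊕ Fin m) ℤ := (X (Sum.inl 0) + 1) * (1 - P) - 1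
  have key : ∀ (w : Fin (1 + m) → ℕ) (s : ℕ), eval (fun j => (w j : ℤ)) (rename e Q) = s ↔
      w (e (Sum.inl 0)) = s ∧ IsWit P ![s] (fun j => w (e (Sum.inr j))) := by
    intro w s
    rw [eval_rename]
    have e1 : ((fun j => (w j : ℤ)) ∘ e) = Sum.elim
        (fun i => ((![w (e (Sum.inl 0))] : Fin 1 → ℕ) i : ℤ)) (fun j => (w (e (Sum.inr j)) : ℤ)) := by
      funext t
      rcases t with t | t
      · fin_cases t; rfl
      · rfl
    rw [e1]
    unfold IsWit
    simp only [Q, map_sub, map_mul, map_add, eval_X, map_one, Sum.elim_inl]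
    have h5 := h2 (Sum.elim (fun i => ((![w (e (Sum.inl 0))] : Fin 1 → ℕ) i : ℤ))
      (fun j => (w (e (Sum.inr j)) : ℤ)))
    constructor
    · intro h
      simp only [Matrix.cons_val_zero] at h
      have h6 : eval (Sum.elim (fun i => ((![w (e (Sum.inl 0))] : Fin 1 → ℕ) i : ℤ))
          (fun j => (w (e (Sum.inr j)) : ℤ))) P = 0 := by
        by_contra h7
        have h8 : 1 ≤ eval (Sum.elim (fun i => ((![w (e (Sum.inl 0))] : Fin 1 → ℕ) i : ℤ))
          (fun j => (w (e (Sum.inr j)) : ℤ))) P := lt_of_le_of_ne h5 (Ne.symm h7)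
        have h9 : (0 : ℤ) ≤ w (e (Sum.inl 0)) := Int.natCast_nonneg _
        have h10 : (0 : ℤ) ≤ s := Int.natCast_nonneg _
        nlinarith
      rw [h6] at h
      have h7 : w (e (Sum.inl 0)) = s := by omega
      exact ⟨h7, h7 ▸ h6⟩
    · rintro ⟨rfl, h⟩
      rw [h]
      simp
  refine ⟨rename e Q, (totalDegree_rename_le _ _).trans ?_, fun s => ⟨fun hs => ?_, ?_⟩⟩
  · exact deg_sub (deg_mul (deg_add (deg_X _) (deg_one _)) (deg_sub (deg_one _) h1)) (deg_one _)
  · obtain ⟨w, hw⟩ := (h3 ![s]).1 hs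
    refine ⟨Sum.elim ![s] w ∘ e.symm, ?_, fun w' hw' => ?_⟩
    · refine (key _ s).2 ⟨by simp, ?_⟩
      convert hw using 1
      funext j
      simp
    · obtain ⟨h5, h6⟩ := (key w' s).1 hw'
      have h7 := h4 _ h6 hw
      funext t
      obtain ⟨t, rfl⟩ := e.surjective t
      rcases t with t | t
      · fin_cases t
        simpa using h5
      · simpa using congrFun h7 t
  · intro hs w hw
    exact hs ((h3 ![s]).2 ⟨_, ((key w s).1 hw).2⟩)

theorem prime_re : REPred (fun s => s ∈ {p : ℕ | p.Prime}) := by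
  have h1 : PrimrecRel (fun x y : ℕ => ¬ (y % x = 0) ∨ x = 1) :=
    PrimrecPred.or (PrimrecPred.not (Primrec.eq.comp (Primrec.nat_mod.comp .snd .fst) (.const 0)))
      (Primrec.eq.comp .fst (.const 1))
  have h2 : PrimrecPred (fun p : ℕ => 2 ≤ p ∧ ∀ x < p, ¬ (p % x = 0) ∨ x = 1) :=
    PrimrecPred.and (Primrec.nat_le.comp (.const 2) .id) (h1.forall_lt.comp .id .id)
  have h3 : PrimrecPred (fun s => s ∈ {p : ℕ | p.Prime}) := by
    refine h2.of_eq fun p => ?_
    simp only [Set.mem_ofPred_eq, Nat.prime_def_lt, Nat.dvd_iff_mod_eq_zero]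
    refine and_congr Iff.rfl (forall_congr' fun x => forall_congr' fun _ => ?_)
    tauto
  exact h3.computablePred.to_re

end Vale.Agent.N345
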